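import Vale.Agent.P167.N.Kit
import Vale.Agent.P167.N.H542.Q.FamB
import Vale.Agent.P167.H760.Q.Asm

/-! generated from Vale.Agent.P167.H760.Q.Asm (q < 1 port) -/

set_option autoImplicit false

namespace Vale.Agent.P167.N.H760.Q

open Vale.Agent.P167.H760.Q Vale.Agent.P167.H760

open Finset Filter Topology Vale.Agent.P167 Vale.Agent.P167.BR Vale.Agent.P167.FK

open Vale.Agent.P167.E6 (IsPolygon Encloses)

open Vale.Agent.P167.H365.NQ (NREDQ XTW)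

open Vale.Agent.P167.H542.Q (BD XTR thB)

open Vale.Agent.P167.H718 (wn wn' Dob lam lam_pos)

open Vale.Agent.P167.H638.L (Deep)

open Vale.Agent.P167.CAQ.J (ArcB)

open Vale.Agent.P167.H760

variable {S : CA.Dat} {θ β : ℝ}

/-- **The local input at a part of a side.** -/
theorem two_in' (X : BD S θ β) (h0 : 0 < θ) (h1 : Ang θ)
    (hβ : Real.cos (θ / 2 + β) = Real.sin θ) {s : ℕ → ℕ} (hb : BaseQ X s)
    {ia : ℕ} {C₀ : ℝ} (hk : JunQ X ia C₀) {f : ℂ → ℝ} (hf : S.FF f) (hN : MajN X f)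
    (hI : MajI X f) {w : ℤ × ℤ} {r : Fin 4} (hw1 : E6.face w r ∈ S.Q)
    (hw2 : E6.face w (r - 1) ∉ S.Q) {α ρ : ℝ}
    (hαρ : (α = 0 ∧ ρ = S.tp) ∨ (α = S.tp ∧ ρ = 1)) :
    TwoIn (2 * Real.cos θ) X.L w r α ρ (fun n => (Vale.Agent.P167.N.H542.Q.BD.famB X h0 h1 hβ).H n f) := by
  have h1_lt := h1.lt
  have hpi := Real.pi_pos
  have hs : 0 < Real.sin θ := Real.sin_pos_of_pos_of_lt_pi h0 (by linarith)
  have hc : 0 < Real.cos θ := Real.cos_pos_of_mem_Ioo ⟨by linarith, by linarith⟩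
  have htp0 := S.tp0
  have htp1 := S.tp1
  obtain ⟨b, harc⟩ := arc_part X hb hk hw1 hw2 hαρ
  have hs1 := hb.1
  have hb2 := hb.2
  obtain ⟨ρd, hρd, hdeep⟩ := H167.deep_dat S hf.1
  have hα0 : 0 ≤ α := by rcases hαρ with ⟨rfl, -⟩ | ⟨rfl, -⟩ <;> linarith
  have hρ1 : ρ ≤ 1 := by rcases hαρ with ⟨-, rfl⟩ | ⟨-, rfl⟩ <;> linarith
  refine ⟨tq θ, fun δ hδ => ?_⟩
  obtain ⟨cN, CN, hcN, hCN, hNn⟩ := hN (δ / 2) (by positivity)
  obtain ⟨cI, CI, hcI, hCI, hIn⟩ := hI (δ / 2) (by positivity)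
  obtain ⟨c, hc0, hcδ, hcN', hcI', hcρ⟩ : ∃ c : ℝ, 0 < c ∧ c ≤ δ / 1000 ∧ c ≤ cN / 3 ∧
      c ≤ cI / 3 ∧ c ≤ ρd / 400 :=
    ⟨min (min (δ / 1000) (cN / 3)) (min (cI / 3) (ρd / 400)), by positivity,
      (min_le_left _ _).trans (min_le_left _ _), (min_le_left _ _).trans (min_le_right _ _),
      (min_le_right _ _).trans (min_le_left _ _), (min_le_right _ _).trans (min_le_right _ _)⟩
  obtain ⟨C, hC1, hCCN, hCCI⟩ : ∃ C : ℝ, 1 ≤ C ∧ CN ≤ C ∧ CI ≤ C :=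
    ⟨max 1 (max CN CI), le_max_left _ _, (le_max_left _ _).trans (le_max_right _ _),
      (le_max_right _ _).trans (le_max_right _ _)⟩
  refine ⟨c, C, hc0, by linarith, ?_⟩
  have hlarge : ∀ᶠ n : ℕ in X.L, 2 / (1 - S.tp) ≤ n := X.le
    ((eventually_ge_atTop ⌈2 / (1 - S.tp)⌉₊).mono fun n hn => (Nat.le_ceil _).trans
      (by exact_mod_cast hn))
  filter_upwards [X.poly, X.enc, X.kle, X.dob, hb2, harc (δ / 2) (by positivity), hNn, hIn,
    X.le hdeep, X.le (eventually_ge_atTop 2), hlarge] with n a1 a2 a3 a4 a5 a6 a7 a8 a9 a10 a11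
  intro R k hR hRc hkR a b' hab ha hb'
  have hn : 2 ≤ n := a10
  have hn' : (0 : ℝ) < n := by
    have : 0 < n := by omega
    exact_mod_cast this
  have hR' : (1 : ℝ) ≤ R := by exact_mod_cast hR
  have hRδ : 1000 * (R : ℝ) ≤ δ * n := by
    have : c * n ≤ δ / 1000 * n := mul_le_mul_of_nonneg_right hcδ hn'.le
    linarith
  have hRρ : 400 * (R : ℝ) ≤ ρd * n := by
    have : c * n ≤ ρd / 400 * n := mul_le_mul_of_nonneg_right hcρ hn'.le
    linarith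
  have hRN : ((R + 2 : ℤ) : ℝ) ≤ cN * n := by
    have : c * n ≤ cN / 3 * n := mul_le_mul_of_nonneg_right hcN' hn'.le
    push_cast
    linarith
  have hRI : ((R + 2 : ℤ) : ℝ) ≤ cI * n := by
    have : c * n ≤ cI / 3 * n := mul_le_mul_of_nonneg_right hcI' hn'.le
    push_cast
    linarith
  have hαn : 0 ≤ α * n := by positivity
  have hρn : ρ * n ≤ n := by nlinarith
  have ha1 : (400 * R : ℤ) < a := by
    have : ((400 * R : ℤ) : ℝ) < a := by push_cast; linarith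
    exact_mod_cast this
  have hb1 : b' + 400 * R < n := by
    have : ((b' + 400 * R : ℤ) : ℝ) < ((n : ℤ) : ℝ) := by push_cast; linarith
    exact_mod_cast this
  have hFp : ∀ x : ℤ, a ≤ x → x ≤ b' + 1 → Fp S (δ / 2) n ((n : ℤ) • w + x • E6.dir r) := by
    intro x hx1 hx2
    have hx1' : (a : ℝ) ≤ x := by exact_mod_cast hx1
    have hx2' : (x : ℝ) ≤ b' + 1 := by exact_mod_cast hx2
    refine ⟨w, r, x, hw1, hw2, rfl, by linarith, by linarith, ?_⟩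
    rw [le_abs]
    rcases hαρ with ⟨h3, h4⟩ | ⟨h3, h4⟩
    · rw [h4] at hb'
      right
      linarith
    · rw [h3] at ha
      left
      linarith
  -- the base point
  rw [div_le_iff₀ (by linarith)] at a11
  obtain ⟨t₀, ht₀⟩ : ∃ t₀, t₀ = ⌊S.tp * n⌋₊ + s n := ⟨_, rfl⟩
  rw [← ht₀] at a5
  have hsn : (s n : ℝ) ≤ 1 := by exact_mod_cast hs1 n
  have ht₀' : (t₀ : ℝ) = ⌊S.tp * n⌋₊ + s n := by rw [ht₀]; push_cast; ring
  have k1 : (t₀ : ℝ) ≤ S.tp * n + 1 := by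
    have : (⌊S.tp * n⌋₊ : ℝ) ≤ S.tp * n := Nat.floor_le (by positivity)
    linarith
  have k2 : S.tp * n < t₀ + 1 := by
    have := Nat.lt_floor_add_one (S.tp * n)
    have : (0 : ℝ) ≤ s n := Nat.cast_nonneg _
    linarith
  have htn' : t₀ < n := by
    have : (t₀ : ℝ) < n := by nlinarith
    exact_mod_cast this
  have hbase : ∀ x ∈ Icc a b', 200 * R < |x - t₀| := by
    intro x hx
    rw [mem_Icc] at hx
    have hx1' : (a : ℝ) ≤ x := by exact_mod_cast hx.1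
    have hx2' : (x : ℝ) ≤ b' := by exact_mod_cast hx.2
    have : ((200 * R : ℤ) : ℝ) < ((|x - t₀| : ℤ) : ℝ) := by
      push_cast
      rw [lt_abs]
      rcases hαρ with ⟨h3, h4⟩ | ⟨h3, h4⟩
      · rw [h4] at hb'
        right
        linarith
      · rw [h3] at ha
        left
        linarith
    exact_mod_cast this
  -- the arc
  have hA : ArcB b (X.q n) (X.k n) ((n : ℤ) • w + ((a + b') / 2) • E6.dir r)
      ((b' - a) / 2 + 1 + 300 * R) := by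
    refine a6 _ _ ?_ ?_
    · have k1 : (a + b') / 2 - ((b' - a) / 2 + 1 + 300 * R) = a - 1 - 300 * R := by omega
      have k2 : (((a + b') / 2 : ℤ) : ℝ) - (((b' - a) / 2 + 1 + 300 * R : ℤ) : ℝ) =
          a - 1 - 300 * R := by exact_mod_cast k1
      rw [k2]
      linarith
    · have k1 : (a + b') / 2 + ((b' - a) / 2 + 1 + 300 * R) ≤ b' + 1 + 300 * R := by omega
      have k2 : (((a + b') / 2 : ℤ) : ℝ) + (((b' - a) / 2 + 1 + 300 * R : ℤ) : ℝ) ≤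
          b' + 1 + 300 * R := by exact_mod_cast k1
      linarith
  -- the charge
  have hfz : ∀ x ∈ Icc a b', ∀ z, nm (z - ((n : ℤ) • w + x • E6.dir r)) ≤ 300 * R →
      CA.cms f (1 / n) z = 0 := by
    intro x hx z hz
    rw [mem_Icc] at hx
    by_contra hfz
    obtain ⟨v, hv1, hv2⟩ := exists_off hw1 hw2 (n := n) (x := x) (by omega) (by omega)
    refine hv2 (a9 z hfz v ?_)
    have h3 := H45.nm_sub_le v ((n : ℤ) • w + x • E6.dir r) z
    rw [H45.nm_sub_comm ((n : ℤ) • w + x • E6.dir r) z] at h3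
    have h5 : nm (v - z) ≤ 2 + 300 * R := by omega
    have h4 : (nm (v - z) : ℝ) ≤ 2 + 300 * R := by exact_mod_cast h5
    linarith
  have key := twoW_n S hs hc hβ hn a1 a2 a3 a4 htn' a5 hw1 hw2 (b := b) (m := k) hR
    (by exact_mod_cast hkR) hab ha1 hb1 hbase hA (CA.cms f (1 / n)) hfz (M := C)
    (fun x hx η' hη' => (a7 _ (hFp x (mem_Icc.1 hx).1 (by have := (mem_Icc.1 hx).2; omega)) _ hRN
      η' hη').mono hCCN)
    (fun x hx τ hτ η' hη' => (a8 _ (hFp x (by have := (mem_Icc.1 hx).1; omega)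
      (mem_Icc.1 hx).2) _ hRI r τ hτ η' hη').mono (mul_le_mul_of_nonneg_right hCCI
      (lam_pos (dir_odd r) a1 a2 hτ hs hc hβ a3 a4 hη').le))
  obtain ⟨j, hj⟩ := key
  refine ⟨j, 1, one_pos, by rw [inv_one]; exact hC1, ?_⟩
  have e : (Vale.Agent.P167.N.H542.Q.BD.famB X h0 h1 hβ).H n f = fun z => Ex (2 * Real.cos θ) (S.D n) (X.η n)
      (XTW (S.D n) (X.q n 0) (wn θ β (X.q n) (S.D n) (X.k n) (CA.cms f (1 / n)))
        (wn' θ β (X.q n) (S.D n) (X.k n) (CA.cms f (1 / n))) z) := by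
    funext z
    rw [Vale.Agent.P167.N.H542.Q.BD.famB_H]
    congr 1
    funext ω
    exact xtr_eq a1 a2 z ω
  rw [e]
  exact hj

/-- **The local input of a Dobrushin family.** -/
theorem two_all' (X : BD S θ β) (h0 : 0 < θ) (h1 : Ang θ)
    (hβ : Real.cos (θ / 2 + β) = Real.sin θ) {s : ℕ → ℕ} (hb : BaseQ X s)
    {ia : ℕ} {C₀ : ℝ} (hk : JunQ X ia C₀) {f : ℂ → ℝ} (hf : S.FF f) (hN : MajN X f)
    (hI : MajI X f) :
    TwoAll (2 * Real.cos θ) S X.L (fun n => (Vale.Agent.P167.N.H542.Q.BD.famB X h0 h1 hβ).H n f) :=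
  fun _ _ hw1 hw2 => ⟨two_in' X h0 h1 hβ hb hk hf hN hI hw1 hw2 (Or.inl ⟨rfl, rfl⟩),
    two_in' X h0 h1 hβ hb hk hf hN hI hw1 hw2 (Or.inr ⟨rfl, rfl⟩)⟩

/-- **The local input of a Dobrushin family** with the base `S.b n`. -/
theorem two_all (X : BD S θ β) (h0 : 0 < θ) (h1 : Ang θ)
    (hβ : Real.cos (θ / 2 + β) = Real.sin θ) (hb : ∀ᶠ n in X.L, X.q n 0 = S.b n)
    {ia : ℕ} {C₀ : ℝ} (hk : JunQ X ia C₀) {f : ℂ → ℝ} (hf : S.FF f) (hN : MajN X f)
    (hI : MajI X f) :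
    TwoAll (2 * Real.cos θ) S X.L (fun n => (Vale.Agent.P167.N.H542.Q.BD.famB X h0 h1 hβ).H n f) :=
  two_all' X h0 h1 hβ (baseQ_b hb) hk hf hN hI

end Vale.Agent.P167.N.H760.Q
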