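import Vale.Agent.P167.N.Kit
import Vale.Agent.P167.N.H562.Q.CB3
import Vale.Agent.P167.H760.Q.Bs2

/-! generated from Vale.Agent.P167.H760.Q.Bs2 (q < 1 port) -/

set_option autoImplicit false

namespace Vale.Agent.P167.N.H760.Q

open Vale.Agent.P167.H760.Q Vale.Agent.P167.H760

open Finset Relation Vale.Agent.P167.BR Vale.Agent.P167.FK Vale.Agent.P167.FKA

open Vale.Agent.P167.E6 (IsPolygon Encloses dir face)

open Vale.Agent.P167.H166 (bxx mem_bxx)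

open Vale.Agent.P167.H167 (Geo Wi tot sgm Q1 Q2 cls cls_spec cls_eq Bg isSeg)

open Vale.Agent.P167.H562.QM (OneC macro_B Nr)

open Vale.Agent.P167.CAQ.J (OC card_Bg_le disj_pcs)

variable {Q : ℝ} {D : Finset (ℤ × ℤ)} {ω η : Cfg} {p x z z' : ℤ × ℤ} {f : ℤ × ℤ → ℝ} {A : Finset Ed}

/-- **The number of the pieces of the size of the box**, with a factor. -/
theorem cnt_w (hQ : Kit Q) (h : RSW Q) (Λ : ℕ) : ∃ C : ℝ, 0 < C ∧
    ∀ (D : Finset (ℤ × ℤ)) (η : Cfg), Good η → ∀ (x : ℤ × ℤ) (L d R : ℤ), 0 ≤ L → 1 ≤ d →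
      L ≤ Λ * d → L + d ≤ R → OC x R D η → ∀ G : Cfg → ℝ, (∀ ω, 0 ≤ G ω) →
      (∀ ω ω' : Cfg, (∀ v, R < nm (v - x) → ω v = ω' v) → G ω = G ω') →
      Ex Q D η (fun ω => G ω * ((Bg D x L (d : ℝ) ω).card : ℝ)) ≤ C * Ex Q D η G := by
  have hQ_pos := hQ.pos
  classical
  have hQ0 : 0 < Q := by linarith
  obtain ⟨ε, C, ρ0, -, hC, hρ0, hmac⟩ := Vale.Agent.P167.N.H562.QM.macro_B hQ h 1 Λ 1 0 one_pos (Nat.cast_nonneg _)
  refine ⟨C + 2 * (2 * (Λ * ρ0) + 1) ^ 2, by positivity,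
    fun D η hη x L d R hL hd hLd hR hOC G hG0 hG => ?_⟩
  have hEG : 0 ≤ Ex Q D η G := Ex_nonneg hQ0 fun S _ => hG0 _
  by_cases hdρ : ρ0 ≤ (d : ℝ)
  · obtain ⟨N, -, hN, hEx⟩ := hmac d hdρ x (bxx x L) (fun v hv => by
      have h1 := mem_bxx.1 hv
      have h2 : nm (v - x) ≤ Λ * d := h1.trans hLd
      exact_mod_cast h2) (fun i => i.elim0)
    have hnr : ∀ v, Nr (bxx x L) (1 * (d : ℝ)) v → nm (v - x) ≤ R := by
      rintro v ⟨u, hu, h2⟩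
      have h3 := mem_bxx.1 hu
      have h4 : nm (v - u) ≤ d := by
        rw [one_mul] at h2
        exact_mod_cast h2
      have h5 := H45.nm_sub_le v u x
      linarith
    have h1 := hEx D η hη (fun y a ha hv => hOC y a ha fun v hv' => hnr v (hv v hv')) G hG0
      (fun ω ω' hω => hG ω ω' fun v hv => hω v fun h2 => by
        have := hnr v h2.2
        omega)
    have h2 : Ex Q D η (fun ω => G ω * ((Bg D x L (d : ℝ) ω).card : ℝ)) ≤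
        Ex Q D η (fun ω => G ω * Real.exp (1 * (N ω : ℝ))) := by
      refine Ex_mono hQ0 fun S _ => mul_le_mul_of_nonneg_left ?_ (hG0 _)
      set ω := cf D η S
      have h3 : (Bg D x L (d : ℝ) ω).card ≤ N ω := by
        refine hN ω _ (fun γ hγ => isSeg (Finset.mem_filter.1 hγ).1)
          (disj_pcs (Finset.filter_subset _ _)) fun γ hγ => ?_
        obtain ⟨h4, ⟨e, he, h5⟩, h6⟩ := Finset.mem_filter.1 hγ
        refine ⟨⟨e, he, mem_bxx.2 h5⟩, ?_⟩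
        unfold Small at h6
        push Not at h6
        obtain ⟨u, hu, v, hv, h7⟩ := h6
        unfold vs at hu hv
        obtain ⟨e1, he1, rfl⟩ := Finset.mem_image.1 hu
        obtain ⟨e2, he2, rfl⟩ := Finset.mem_image.1 hv
        exact ⟨e1, he1, e2, he2, by rw [one_mul]; exact h7⟩
      have h4 : ((Bg D x L (d : ℝ) ω).card : ℝ) ≤ N ω := by exact_mod_cast h3
      have h5 := Real.add_one_le_exp (N ω : ℝ)
      rw [one_mul]
      linarith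
    have h3 : 0 ≤ 2 * (2 * ((Λ : ℝ) * ρ0) + 1) ^ 2 * Ex Q D η G := by positivity
    nlinarith
  · push Not at hdρ
    have h1 : Ex Q D η (fun ω => G ω * ((Bg D x L (d : ℝ) ω).card : ℝ)) ≤
        Ex Q D η (fun ω => 2 * (2 * (Λ * ρ0) + 1) ^ 2 * G ω) := by
      refine Ex_mono hQ0 fun S _ => ?_
      rw [mul_comm]
      refine mul_le_mul_of_nonneg_right ((card_Bg_le D x hL d _).trans ?_) (hG0 _)
      have h2 : (L : ℝ) ≤ Λ * d := by exact_mod_cast hLd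
      have h3 : (L : ℝ) ≤ Λ * ρ0 :=
        h2.trans (mul_le_mul_of_nonneg_left hdρ.le (Nat.cast_nonneg _))
      have h4 : (0 : ℝ) ≤ L := by exact_mod_cast hL
      have h5 : (2 * (L : ℝ) + 1) ^ 2 ≤ (2 * (Λ * ρ0) + 1) ^ 2 :=
        pow_le_pow_left₀ (by linarith) (by linarith) 2
      linarith
    rw [Ex_mul_left] at h1
    nlinarith

/-- **The mean number of the pieces which separate two sites**, with a factor. -/
theorem ex_sps (hQ : Kit Q) (h : RSW Q) : ∃ C : ℝ, 0 < C ∧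
    ∀ (D : Finset (ℤ × ℤ)) (η : Cfg), Good η → ∀ (p z z' : ℤ × ℤ) (m r R : ℤ) (J : ℕ),
      Geo 2 m D p → z ∈ sites D → z' ∈ sites D → 1 ≤ r → nm (z - z') ≤ r → r ≤ 2 ^ J →
      (2 : ℤ) ^ J ≤ m → 8 * 2 ^ J ≤ R → OC z R D η → ∀ G : Cfg → ℝ, (∀ ω, 0 ≤ G ω) →
      (∀ ω ω' : Cfg, (∀ v, R < nm (v - z) → ω v = ω' v) → G ω = G ω') →
      Ex Q D η (fun ω => G ω * ((sps D p z z' ω).card : ℝ)) ≤ C * (J + 1) * Ex Q D η G := by
  have hQ_pos := hQ.pos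
  classical
  have hQ0 : 0 < Q := by linarith
  obtain ⟨C, hC, hcnt⟩ := cnt_w hQ h 6
  refine ⟨2 * C, by positivity, fun D η hη p z z' m r R J hG hz hz' hr1 hzz hrJ hJm hJR hOC G hG0
    hGl => ?_⟩
  have hEG : 0 ≤ Ex Q D η G := Ex_nonneg hQ0 fun S _ => hG0 _
  have hJ1 : (1 : ℤ) ≤ 2 ^ J := one_le_pow₀ (by norm_num)
  have h1 : Ex Q D η (fun ω => G ω * ((sps D p z z' ω).card : ℝ)) ≤
      Ex Q D η (fun ω => ∑ j ∈ range J,
        (G ω * ((Bg D z (3 * 2 ^ (j + 1)) (((2 : ℤ) ^ j : ℤ) : ℝ) ω).card : ℝ) +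
        G ω * ((Bg D z' (3 * 2 ^ (j + 1)) (((2 : ℤ) ^ j : ℤ) : ℝ) ω).card : ℝ)) +
        G ω * ((Bg D z (2 * r) (((2 : ℤ) ^ J : ℤ) : ℝ) ω).card : ℝ)) := by
    refine Ex_mono hQ0 fun S _ => ?_
    have h2 := card_sps hG hz hz' hr1 (hrJ.trans hJm) hzz hJm (cf D η S)
    have h3 : ((sps D p z z' (cf D η S)).card : ℝ) ≤ ∑ j ∈ range J,
        (((Bg D z (3 * 2 ^ (j + 1)) (((2 : ℤ) ^ j : ℤ) : ℝ) (cf D η S)).card : ℝ) +
        ((Bg D z' (3 * 2 ^ (j + 1)) (((2 : ℤ) ^ j : ℤ) : ℝ) (cf D η S)).card : ℝ)) +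
        ((Bg D z (2 * r) (((2 : ℤ) ^ J : ℤ) : ℝ) (cf D η S)).card : ℝ) := by exact_mod_cast h2
    refine (mul_le_mul_of_nonneg_left h3 (hG0 _)).trans (le_of_eq ?_)
    rw [mul_add, mul_sum]
    congr 1
    exact sum_congr rfl fun j _ => mul_add _ _ _
  have e : Ex Q D η (fun ω => ∑ j ∈ range J,
        (G ω * ((Bg D z (3 * 2 ^ (j + 1)) (((2 : ℤ) ^ j : ℤ) : ℝ) ω).card : ℝ) +
        G ω * ((Bg D z' (3 * 2 ^ (j + 1)) (((2 : ℤ) ^ j : ℤ) : ℝ) ω).card : ℝ)) +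
        G ω * ((Bg D z (2 * r) (((2 : ℤ) ^ J : ℤ) : ℝ) ω).card : ℝ)) =
      ∑ j ∈ range J,
        (Ex Q D η (fun ω => G ω * ((Bg D z (3 * 2 ^ (j + 1)) (((2 : ℤ) ^ j : ℤ) : ℝ) ω).card : ℝ)) +
        Ex Q D η (fun ω =>
          G ω * ((Bg D z' (3 * 2 ^ (j + 1)) (((2 : ℤ) ^ j : ℤ) : ℝ) ω).card : ℝ))) +
        Ex Q D η (fun ω => G ω * ((Bg D z (2 * r) (((2 : ℤ) ^ J : ℤ) : ℝ) ω).card : ℝ)) := by
    rw [Ex_add, Ex_sum]
    congr 1
    exact sum_congr rfl fun j _ => Ex_add _ _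
  rw [e] at h1
  have hGl' : ∀ ω ω' : Cfg, (∀ v, R - r < nm (v - z') → ω v = ω' v) → G ω = G ω' := by
    intro ω ω' hω
    refine hGl ω ω' fun v hv => hω v ?_
    have h5 := H45.nm_sub_le v z' z
    rw [H45.nm_sub_comm z' z] at h5
    linarith
  have hOC' : OC z' (R - r) D η := hOC.shift (by linarith)
  have hsc : ∀ j ∈ range J, 2 * (2 : ℤ) ^ j ≤ 2 ^ J := by
    intro j hj
    rw [mem_range] at hj
    rw [← pow_succ']
    exact pow_le_pow_right₀ (by norm_num) hj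
  have h2 : ∀ j ∈ range J,
      (Ex Q D η (fun ω => G ω * ((Bg D z (3 * 2 ^ (j + 1)) (((2 : ℤ) ^ j : ℤ) : ℝ) ω).card : ℝ)) +
      Ex Q D η (fun ω =>
        G ω * ((Bg D z' (3 * 2 ^ (j + 1)) (((2 : ℤ) ^ j : ℤ) : ℝ) ω).card : ℝ))) ≤
      2 * C * Ex Q D η G := by
    intro j hj
    have h3 := hsc j hj
    have h4 : (1 : ℤ) ≤ 2 ^ j := one_le_pow₀ (by norm_num)
    have h5 : (3 : ℤ) * 2 ^ (j + 1) = 6 * 2 ^ j := by rw [pow_succ]; ring
    have k1 := hcnt D η hη z (3 * 2 ^ (j + 1)) (2 ^ j) R (by positivity) h4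
      (by rw [h5]; push_cast; rfl) (by rw [h5]; linarith) hOC G hG0 hGl
    have k2 := hcnt D η hη z' (3 * 2 ^ (j + 1)) (2 ^ j) (R - r) (by positivity) h4
      (by rw [h5]; push_cast; rfl) (by rw [h5]; linarith) hOC' G hG0 hGl'
    linarith
  have h3 : Ex Q D η (fun ω => G ω * ((Bg D z (2 * r) (((2 : ℤ) ^ J : ℤ) : ℝ) ω).card : ℝ)) ≤
      C * Ex Q D η G :=
    hcnt D η hη z (2 * r) (2 ^ J) R (by linarith) hJ1 (by push_cast; linarith) (by linarith) hOC G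
      hG0 hGl
  have h4 := sum_le_sum h2
  rw [sum_const, card_range, nsmul_eq_mul] at h4
  have h5 : 0 ≤ C * Ex Q D η G := by positivity
  linarith

end Vale.Agent.P167.N.H760.Q
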