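import Vale.Agent.P167.N.Kit
import Vale.Agent.P167.N.CAQ.J7
import Vale.Agent.P167.N.H542.Q.FamB
import Vale.Agent.P167.N.H760.Q.Asm
import Vale.Agent.P167.N.H760.Q.Bs6
import Vale.Agent.P167.N.H852.Q.Y4
import Vale.Agent.P167.H760.Q.Bs7

/-! generated from Vale.Agent.P167.H760.Q.Bs7 (q < 1 port) -/

set_option autoImplicit false

namespace Vale.Agent.P167.N.H760.Q

open Vale.Agent.P167.H760.Q Vale.Agent.P167.H760

open Filter Topology Set Complex Metric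

open Vale.Agent.P167.BR (sites)

open Vale.Agent.P167.FK (Ex RSW)

open Vale.Agent.P167.CA (Dat cms)

open Vale.Agent.P167.E6 (IsPolygon Encloses pt)

open Vale.Agent.P167.H718 (Dob)

open Vale.Agent.P167.H542.Q (thB BD)

open Vale.Agent.P167.CAQ (dH Fam two_limit eqj_BD near_W near_F)

open Vale.Agent.P167.CAQ.J (poly_rot)

open Vale.Agent.P167.H411.Q (bpt bpt_side arcW arcF arcW_arc arcF_arc Lims)

open Vale.Agent.P167.H365.NQ (NREDQ)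

open scoped ContDiff

variable {S : CA.Dat} {θ β : ℝ} {f : ℂ → ℝ}

theorem neuh_fam (X : BD S θ β) (h0 : 0 < θ) (h1 : Ang θ)
    (hβ : Real.cos (θ / 2 + β) = Real.sin θ) (hRSW : RSW (2 * Real.cos θ))
    (hN : ∀ t, NREDQ (2 * Real.cos θ) t 8) {s : ℕ → ℕ} (hb : BaseQ X s) {ia : ℕ} {C₀ : ℝ}
    (hk : JunQ X ia C₀) (hf : S.FF f) (hI : MajI X f) :
    NeuH S X.L (fun n => (Vale.Agent.P167.N.H542.Q.BD.famB X h0 h1 hβ).H n f) :=
  neuh_of_two (Vale.Agent.P167.N.H542.Q.BD.cos_pos h0 h1) hN X.le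
    (two_all' X h0 h1 hβ hb hk hf (H852.Q.majN h0 h1 hβ hRSW X hf) hI)

/-- **`NeuH` of a wired or free family** from the family with the next base point. -/
theorem neuh_shift (X : BD S θ β) (h0 : 0 < θ) (h1 : Ang θ)
    (hβ : Real.cos (θ / 2 + β) = Real.sin θ) (hRSW : RSW (2 * Real.cos θ))
    (hN : ∀ t, NREDQ (2 * Real.cos θ) t 8) (hk : ∀ᶠ n in X.L, X.k n = 0 ∨ X.k n = X.N n)
    (hb : ∀ᶠ n in X.L, X.q n 0 = S.b n) {ia : ℕ} {C₀ : ℝ} (hj : JunQ X ia C₀) (hf : S.FF f)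
    (hI : MajI (nbX X hk) f) : NeuH S X.L (fun n => (Vale.Agent.P167.N.H542.Q.BD.famB X h0 h1 hβ).H n f) :=
  neuh_cmp X.le (neuh_fam (nbX X hk) h0 h1 hβ hRSW hN (baseQ_nb X hk hb) (junQ_nb X hk hj) hf hI)
    (cmp_flx h0 h1 hβ hRSW hf X hk hb)

/-- `CORE` of a Dobrushin family. -/
theorem core_of' (h0 : 0 < θ) (h1 : Ang θ) (hβ : Real.cos (θ / 2 + β) = Real.sin θ)
    {S : Dat} (X : BD S θ β) (hRSW : RSW (2 * Real.cos θ)) (hM : (Vale.Agent.P167.N.H542.Q.BD.famB X h0 h1 hβ).MOM)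
    (hT : ∀ f, S.FF f → NeuH S X.L fun n => (Vale.Agent.P167.N.H542.Q.BD.famB X h0 h1 hβ).H n f)
    (hE : (Vale.Agent.P167.N.H542.Q.BD.famB X h0 h1 hβ).EQ) : (Vale.Agent.P167.N.H542.Q.BD.famB X h0 h1 hβ).CORE := by
  have h1_lt := h1.lt
  have hM2 := Vale.Agent.P167.N.H542.Q.BD.famB_M2 X h0 h1 hβ hRSW
  refine CAQ.core _ hM hM2 hE ?_
  refine neu_of' _ (fun f hf => ?_) hT
  obtain ⟨C, hC⟩ := CAQ.path_bounds _ hM2 hf
  refine ⟨C, hC.mono fun n hn => ?_⟩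
  have := (hn.1 1 (by simp)).1
  simpa using this

section

variable (h0 : 0 < θ) (h1 : Ang θ) (hβ : Real.cos (θ / 2 + β) = Real.sin θ)
  (hRSW : RSW (2 * Real.cos θ)) {S : Dat}

include hRSW

/-- **The limit `U^D - U^F`** (`XF` free). -/
theorem lims_DF' (XD XF : BD S θ β) (hL : XF.L = XD.L) (hbD : ∀ᶠ n in XD.L, XD.q n 0 = S.b n)
    (hbF : ∀ᶠ n in XD.L, XF.q n 0 = S.b n) (hkF : ∀ᶠ n in XD.L, XF.k n = XF.N n) {α C₀ : ℝ}
    (hα0 : S.tp < α) (hα1 : α < S.l + S.tp)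
    (hkD : ∀ᶠ n : ℕ in XD.L, α * n - C₀ ≤ ⌊S.tp * n⌋₊ + (XD.k n : ℝ))
    (mD : (Vale.Agent.P167.N.H542.Q.BD.famB XD h0 h1 hβ).MOM) (mF : (Vale.Agent.P167.N.H542.Q.BD.famB XF h0 h1 hβ).MOM)
    (nD : NeuH S XD.L fun n => (Vale.Agent.P167.N.H542.Q.BD.famB XD h0 h1 hβ).H n fun _ => 0)
    (nF : NeuH S XF.L fun n => (Vale.Agent.P167.N.H542.Q.BD.famB XF h0 h1 hβ).H n fun _ => 0) :
    Lims (Vale.Agent.P167.N.H542.Q.BD.famB XD h0 h1 hβ) (Vale.Agent.P167.N.H542.Q.BD.famB XF h0 h1 hβ) (arcW S α) := by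
  have h1_lt := h1.lt
  intro U hU
  have hK := arcW_arc S hα1
  have hL' : (Vale.Agent.P167.N.H542.Q.BD.famB XD h0 h1 hβ).L = (Vale.Agent.P167.N.H542.Q.BD.famB XF h0 h1 hβ).L := hL.symm
  have hlt : Tendsto (fun n : ℕ => α + 1 / (n : ℝ)) atTop (𝓝 (α + 0)) :=
    tendsto_const_nhds.add tendsto_one_div_atTop_nhds_zero_nat
  rw [add_zero] at hlt
  have hα0' : 0 ≤ α := by have := S.tp0; linarith
  have heq := Vale.Agent.P167.N.CAQ.eqj_BD h0 h1 hβ hRSW XD XF hL.symm (by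
    filter_upwards [hbD, hbF] with n a b using a.trans b.symm) true (K := arcW S α)
    (C₀ := 2 * (|C₀| + 1)) (by
    filter_upwards [hbD, hkF, hkD, XD.poly, XD.enc, (hL ▸ XF.poly : ∀ᶠ n in XD.L, _),
      (hL ▸ XF.enc : ∀ᶠ n in XD.L, _),
      (eventually_gt_atTop 0).filter_mono XD.le,
      (hlt.eventually (ge_mem_nhds hα1)).filter_mono XD.le] with
      n b1 b2 b3 b4 b5 b6 b7 hn hαn j hj hbad
    have hNN : XD.N n = XF.N n := (poly_rot b4 b5 b6 b7).1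
    have h2 : XD.k n ≤ j := by
      by_contra hcon
      apply hbad
      exact ⟨by omega, by rw [b2, ← hNN]; exact hj⟩
    exact near_W S hn b4 b5 b1 hα0' hαn b3 h2 hj)
  exact two_limit hL' mD mF hK heq (fun w r a1 a2 φ a3 a4 _ ε hε =>
    neu_dH' _ _ hL' nD nF w r a1 a2 φ a3 a4 ε hε) U hU

/-- **The limit `U^D - U^W`** (`XW` wired). -/
theorem lims_DW' (XD XW : BD S θ β) (hL : XW.L = XD.L) (hbD : ∀ᶠ n in XD.L, XD.q n 0 = S.b n)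
    (hbW : ∀ᶠ n in XD.L, XW.q n 0 = S.b n) (hkW : ∀ᶠ n in XD.L, XW.k n = 0) {α C₀ : ℝ}
    (hα0 : S.tp < α)
    (hkD : ∀ᶠ n : ℕ in XD.L, ⌊S.tp * n⌋₊ + (XD.k n : ℝ) ≤ α * n + C₀)
    (mD : (Vale.Agent.P167.N.H542.Q.BD.famB XD h0 h1 hβ).MOM) (mW : (Vale.Agent.P167.N.H542.Q.BD.famB XW h0 h1 hβ).MOM)
    (nD : NeuH S XD.L fun n => (Vale.Agent.P167.N.H542.Q.BD.famB XD h0 h1 hβ).H n fun _ => 0)
    (nW : NeuH S XW.L fun n => (Vale.Agent.P167.N.H542.Q.BD.famB XW h0 h1 hβ).H n fun _ => 0) :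
    Lims (Vale.Agent.P167.N.H542.Q.BD.famB XD h0 h1 hβ) (Vale.Agent.P167.N.H542.Q.BD.famB XW h0 h1 hβ) (arcF S α) := by
  have h1_lt := h1.lt
  intro U hU
  have hK := arcF_arc S hα0
  have hL' : (Vale.Agent.P167.N.H542.Q.BD.famB XD h0 h1 hβ).L = (Vale.Agent.P167.N.H542.Q.BD.famB XW h0 h1 hβ).L := hL.symm
  have hlt : Tendsto (fun n : ℕ => S.tp + 1 / (n : ℝ)) atTop (𝓝 (S.tp + 0)) :=
    tendsto_const_nhds.add tendsto_one_div_atTop_nhds_zero_nat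
  rw [add_zero] at hlt
  have heq := Vale.Agent.P167.N.CAQ.eqj_BD h0 h1 hβ hRSW XD XW hL.symm (by
    filter_upwards [hbD, hbW] with n a b using a.trans b.symm) false (K := arcF S α)
    (C₀ := 2 * (|C₀| + 2)) (by
    filter_upwards [hbD, hkW, hkD, XD.poly, XD.enc, (eventually_gt_atTop 0).filter_mono XD.le,
      (hlt.eventually (ge_mem_nhds hα0)).filter_mono XD.le] with
      n b1 b2 b3 b4 b5 hn hαn j hj hbad
    have h2 : j < XD.k n := by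
      by_contra hcon
      apply hbad
      exact ⟨by omega, by rw [b2]; exact Nat.zero_le _⟩
    exact near_F S hn b4 b5 b1 hαn b3 h2)
  exact two_limit hL' mD mW hK heq (fun w r a1 a2 φ a3 a4 _ ε hε =>
    neu_dH' _ _ hL' nD nW w r a1 a2 φ a3 a4 ε hε) U hU

end

end Vale.Agent.P167.N.H760.Q
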