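import Vale.Agent.P167.N.Kit
import Vale.Agent.P167.N.H542.Q.FamB
import Vale.Agent.P167.N.H760.Q.Bs7
import Vale.Agent.P167.N.H852.Q.Neu
import Vale.Agent.P167.N.H852.Q.Y5f
import Vale.Agent.P167.N.KitQ
import Vale.Agent.P167.H760.Q.NeuB

/-! generated from Vale.Agent.P167.H760.Q.NeuB (q < 1 port) -/

set_option autoImplicit false

namespace Vale.Agent.P167.N.H760.Q

open Vale.Agent.P167.H760.Q Vale.Agent.P167.H760

open Filter Topology

open Vale.Agent.P167.FK (Ex RSW)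

open Vale.Agent.P167.CA (Dat)

open Vale.Agent.P167.H542.Q (BD)

open Vale.Agent.P167.H365.NQ (NREDQ)

open Vale.Agent.P167.H825.Q (Bc bdQ qS kS tN)

open Vale.Agent.P167.H852.Q (Cls FwC DbC MomT LamT JunK twoAll_of majI_of sepE_of)

variable {θ β : ℝ}

/-- **The Neumann block.** -/
theorem neu_block (h0 : 0 < θ) (h1 : Ang θ) (hβ : Real.cos (θ / 2 + β) = Real.sin θ)
    (hN : ∀ t, NREDQ (2 * Real.cos θ) t 8)
    (hML : ∀ {S : Dat} (X : BD S θ β) (s : ℕ → ℕ), BaseQ X s → Cls X → MomT X ∧ LamT X)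
    (S : Dat) (bc : Bc) (hbc : bc.In S.l) (L : Filter ℕ) (hL : L ≤ atTop)
    (hc : L.IsCountablyGenerated) (htp : S.tp = 1 / 2) (hr : S.r = 0) (h4 : L ≤ 𝓟 {n | 4 ∣ n})
    (hbg : ∀ i ta, bc = .dob i ta → ta = S.tp ∧ S.p (i + 1) = S.p i + (1, 0)) {f : ℂ → ℝ}
    (hf : S.FF f) : NeuH S L (fun n => ((Vale.Agent.P167.N.H542.Q.BD.famB (bdQ S θ β bc hbc L hL hc)) h0 h1 hβ).H n f) := by
  have h1_lt := h1.lt
  have hRSW : RSW (2 * Real.cos θ) := h1.kit.rsw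
  have h4' : ∀ᶠ n in L, 4 ∣ n := h4 (mem_principal_self _)
  obtain ⟨X, hX⟩ : ∃ X : BD S θ β, X = bdQ S θ β bc hbc L hL hc := ⟨_, rfl⟩
  have hXL : X.L = L := by rw [hX]; rfl
  have hb : ∀ᶠ n : ℕ in X.L, X.q n 0 = S.b n := by
    rw [hX]
    exact hL ((eventually_gt_atTop 0).mono fun _ hn => H825.Q.qS_zero S hn)
  have hpar : ∀ᶠ n : ℕ in X.L, Even ((X.q n 0).1 + (X.q n 0).2) := by
    filter_upwards [hb, (hXL ▸ h4' : ∀ᶠ n in X.L, 4 ∣ n)] with n a1 a2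
    rw [a1, pb_b, even_pb hr a2]
    exact even_floor htp a2
  have h4X : X.L ≤ 𝓟 {n | 4 ∣ n} := hXL ▸ h4
  -- with the base `S.b n`
  have main : JunK X → Cls X → NeuH S X.L (fun n => (Vale.Agent.P167.N.H542.Q.BD.famB X h0 h1 hβ).H n f) := by
    intro hj hcl
    obtain ⟨hM, hLa⟩ := hML X _ (baseQ_b hb) hcl
    exact neuh_of_two (Vale.Agent.P167.N.H542.Q.BD.cos_pos h0 h1) hN X.le
      (Vale.Agent.P167.N.H852.Q.twoAll_of X h0 h1 hβ hRSW (baseQ_b hb) hj hM hLa hf)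
  rw [← hX]
  rw [← hXL]
  cases bc with
  | free =>
    have hk : ∀ᶠ n in X.L, X.k n = X.N n := by rw [hX]; exact Eventually.of_forall fun _ => rfl
    refine main (Or.inr (Or.inl hk)) ⟨htp, hr, h4X, Or.inl ⟨false, ?_, ?_⟩⟩
    · simpa using hk
    · simpa using hpar
  | wired =>
    have hk : ∀ᶠ n in X.L, X.k n = 0 := by rw [hX]; exact Eventually.of_forall fun _ => rfl
    have hk' : ∀ᶠ n in X.L, X.k n = 0 ∨ X.k n = X.N n := hk.mono fun _ h => Or.inl h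
    have hbn := baseQ_nb X hk' hb
    have hjK : JunK (nbX X hk') := Or.inl hk
    have hj : JunQ X 0 0 := hk.mono fun n hn => by rw [hn]; simp
    have hcl : Cls (nbX X hk') := by
      refine ⟨htp, hr, h4X, Or.inl ⟨true, hk, ?_⟩⟩
      · filter_upwards [hbn.2, (hXL ▸ h4' : ∀ᶠ n in X.L, 4 ∣ n)] with n a1 a2
        rw [a1, even_pb hr a2, Nat.even_add_one]
        simpa using even_floor htp a2
    obtain ⟨hM, hLa⟩ := hML (nbX X hk') _ hbn hcl
    exact neuh_shift X h0 h1 hβ hRSW hN hk' hb hj hf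
      (Vale.Agent.P167.N.H852.Q.majI_of h0 h1 hβ hRSW (nbX X hk') hbn (junQ_nb X hk' hj) (sepE_of (nbX X hk') hbn hjK) hM
        hLa hf)
  | dob i ta =>
    obtain ⟨rfl, hdir⟩ := hbg i ta rfl
    have hk : ∀ᶠ n in X.L, X.k n = i * n := by
      rw [hX]
      exact Eventually.of_forall fun _ => kS_dobT
    obtain ⟨i0, i1, -, -⟩ := hbc
    refine main (Or.inr (Or.inr ⟨i, 0, i0, i1, hk.mono fun n hn => ?_⟩))
      ⟨htp, hr, h4X, Or.inr ⟨i, i0, i1, hdir, hb, hk⟩⟩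
    rw [hn]
    push_cast
    simp

end Vale.Agent.P167.N.H760.Q
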